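import Vale.Agent.P266.Mon

/-! The integer data: charts, valuation frames, generators. -/

namespace Vale.Agent.P266
open Matrix

def up : Vc := ev 2 - 2835 • ev 6
def u1 : Vc := ev 0 - 30 • ev 4
def u2 : Vc := ev 1 - 54 • ev 5
def dv (i : Fin 12) (n : ℕ) : Vc := ev i - n • ev 2
def dw (i : Fin 12) (n : ℕ) : Vc := ev i - n • ev 7
def u0 : Vc := -ev 2 - 84 • dv 3 5
def ze1 : Vc := (1 : ℤ) • u1 + (-88 : ℤ) • ev 7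
def xi1 : Vc := (-3 : ℤ) • u1 + (265 : ℤ) • ev 7
def ze2 : Vc := (3 : ℤ) • u2 + (-299 : ℤ) • ev 8
def xi2 : Vc := (-13 : ℤ) • u2 + (1296 : ℤ) • ev 8
def nx1 : Vc := 3 • u1 - 265 • ev 7
def nx2 : Vc := 13 • u2 - 1296 • ev 8
def gp : Vc := ev 9 - 105 • ev 6
def g1 : Vc := ev 9 - 25 • ev 4 - 5 • ev 7
def g2 : Vc := ev 9 - 52 • ev 5 - 1 • ev 8
def g0 : Vc := dv 9 105 - 21 • dv 3 5
def U1 : Vc := 466830 • ev 10 - 1512 • ev 0 - 2093 • ev 1 - 166 • ev 2 + 244566 • ev 9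
def U2 : Vc := 466830 • ev 11 - 2268 • ev 0 - 2275 • ev 1 - 2 • ev 2 + 226800 • ev 9

def bc : Fin 4 → Mt :=
  ![![up, ev 0, ev 1, gp, ev 10 + 54 • ev 6, ev 11 + 51 • ev 6, ev 6, ev 3, ev 4, ev 5, ev 7, ev 8],
    ![xi1, ev 1, ev 2, g1, ev 10 + 13 • ev 4 + 7 • ze1, ev 11 + 12 • ev 4 + 6 • ze1, ze1, ev 4,
      ev 3, ev 5, ev 6, ev 8],
    ![xi2, ev 0, ev 2, g2, ev 10 + 27 • ev 5 + ze2, ev 11 + 25 • ev 5, ze2, ev 5,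
      ev 3, ev 4, ev 6, ev 7],
    ![u0, dv 0 1, dv 1 1, g0, ev 10 + 55 • ev 2 + 11 • dv 3 5, ev 11 + 51 • ev 2 + 10 • dv 3 5,
      dv 3 5, dv 4 4, dv 5 2, dv 6 1, dv 7 1, dv 8 1]]

def bv : Fin 6 → Mt :=
  ![![-ev 7, ev 0, ev 1, ev 2, dw 3 5, dw 4 4, dw 5 2, dw 6 1, dw 8 1, dw 9 105, U1, U2],
    ![dw 2 1, -ev 2, dv 0 1, dv 1 1, dw 3 5, dw 4 4, dw 5 2, dw 6 1, dw 8 1, dw 9 105, U1, U2],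
    ![up, ev 6, ev 3, ev 4, ev 5, ev 7, ev 8, ev 0, ev 1, gp, U1, U2],
    ![nx1, ev 4, ev 7, ev 3, ev 5, ev 6, ev 8, ev 1, ev 2, g1, U1, U2],
    ![nx2, ev 5, ev 8, ev 3, ev 4, ev 6, ev 7, ev 0, ev 2, g2, U1, U2],
    ![u0, dv 3 5, dv 4 4, dv 5 2, dv 6 1, dv 7 1, dv 8 1, dv 0 1, dv 1 1, g0, U1, U2]]

def xc : Fin 4 → Vc :=
  ![900 • ev 0 + 970 • ev 1 + ev 2 + 102165 • ev 6 - 1000 • ev 9,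
    3 • ev 0 + 53 • ev 1 + 3 • ev 2 + 1260 • ev 4 + 5 • ev 7 - 54 • ev 9,
    1081 • ev 0 + 13 • ev 1 + 49 • ev 2 + 66742 • ev 5 + ev 8 - 1297 • ev 9,
    5 • ev 0 + 5 • ev 1 + 409 • ev 2 + 21 • ev 3 - 5 • ev 9]

def Fcp : Mt := mat
  [[0, 1, 0, 0, 0, 0, 0, 0, 0, 0, 0, 0],
    [0, 0, 1, 0, 0, 0, 0, 0, 0, 0, 0, 0],
    [1, 0, 0, 0, 0, 0, 2835, 0, 0, 0, 0, 0],
    [0, 0, 0, 0, 0, 0, 0, 1, 0, 0, 0, 0],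
    [0, 0, 0, 0, 0, 0, 0, 0, 1, 0, 0, 0],
    [0, 0, 0, 0, 0, 0, 0, 0, 0, 1, 0, 0],
    [0, 0, 0, 0, 0, 0, 1, 0, 0, 0, 0, 0],
    [0, 0, 0, 0, 0, 0, 0, 0, 0, 0, 1, 0],
    [0, 0, 0, 0, 0, 0, 0, 0, 0, 0, 0, 1],
    [0, 0, 0, 1, 0, 0, 105, 0, 0, 0, 0, 0],
    [0, 0, 0, 0, 1, 0, -54, 0, 0, 0, 0, 0],
    [0, 0, 0, 0, 0, 1, -51, 0, 0, 0, 0, 0]]

def Fc1 : Mt := mat
  [[88, 0, 0, 0, 0, 0, 265, 30, 0, 0, 0, 0],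
    [0, 1, 0, 0, 0, 0, 0, 0, 0, 0, 0, 0],
    [0, 0, 1, 0, 0, 0, 0, 0, 0, 0, 0, 0],
    [0, 0, 0, 0, 0, 0, 0, 0, 1, 0, 0, 0],
    [0, 0, 0, 0, 0, 0, 0, 1, 0, 0, 0, 0],
    [0, 0, 0, 0, 0, 0, 0, 0, 0, 1, 0, 0],
    [0, 0, 0, 0, 0, 0, 0, 0, 0, 0, 1, 0],
    [1, 0, 0, 0, 0, 0, 3, 0, 0, 0, 0, 0],
    [0, 0, 0, 0, 0, 0, 0, 0, 0, 0, 0, 1],
    [5, 0, 0, 1, 0, 0, 15, 25, 0, 0, 0, 0],
    [0, 0, 0, 0, 1, 0, -7, -13, 0, 0, 0, 0],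
    [0, 0, 0, 0, 0, 1, -6, -12, 0, 0, 0, 0]]

def Fc2 : Mt := mat
  [[0, 1, 0, 0, 0, 0, 0, 0, 0, 0, 0, 0],
    [299, 0, 0, 0, 0, 0, 1296, 54, 0, 0, 0, 0],
    [0, 0, 1, 0, 0, 0, 0, 0, 0, 0, 0, 0],
    [0, 0, 0, 0, 0, 0, 0, 0, 1, 0, 0, 0],
    [0, 0, 0, 0, 0, 0, 0, 0, 0, 1, 0, 0],
    [0, 0, 0, 0, 0, 0, 0, 1, 0, 0, 0, 0],
    [0, 0, 0, 0, 0, 0, 0, 0, 0, 0, 1, 0],
    [0, 0, 0, 0, 0, 0, 0, 0, 0, 0, 0, 1],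
    [3, 0, 0, 0, 0, 0, 13, 0, 0, 0, 0, 0],
    [3, 0, 0, 1, 0, 0, 13, 52, 0, 0, 0, 0],
    [0, 0, 0, 0, 1, 0, -1, -27, 0, 0, 0, 0],
    [0, 0, 0, 0, 0, 1, 0, -25, 0, 0, 0, 0]]

def Fc0 : Mt := mat
  [[-1, 1, 0, 0, 0, 0, -84, 0, 0, 0, 0, 0],
    [-1, 0, 1, 0, 0, 0, -84, 0, 0, 0, 0, 0],
    [-1, 0, 0, 0, 0, 0, -84, 0, 0, 0, 0, 0],
    [-5, 0, 0, 0, 0, 0, -419, 0, 0, 0, 0, 0],
    [-4, 0, 0, 0, 0, 0, -336, 1, 0, 0, 0, 0],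
    [-2, 0, 0, 0, 0, 0, -168, 0, 1, 0, 0, 0],
    [-1, 0, 0, 0, 0, 0, -84, 0, 0, 1, 0, 0],
    [-1, 0, 0, 0, 0, 0, -84, 0, 0, 0, 1, 0],
    [-1, 0, 0, 0, 0, 0, -84, 0, 0, 0, 0, 1],
    [-105, 0, 0, 1, 0, 0, -8799, 0, 0, 0, 0, 0],
    [55, 0, 0, 0, 1, 0, 4609, 0, 0, 0, 0, 0],
    [51, 0, 0, 0, 0, 1, 4274, 0, 0, 0, 0, 0]]

def FCf : Mt := mat
  [[0, 466830, 0, 0, 0, 0, 0, 0, 0, 0, 0, 0],
    [0, 0, 466830, 0, 0, 0, 0, 0, 0, 0, 0, 0],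
    [0, 0, 0, 466830, 0, 0, 0, 0, 0, 0, 0, 0],
    [-2334150, 0, 0, 0, 466830, 0, 0, 0, 0, 0, 0, 0],
    [-1867320, 0, 0, 0, 0, 466830, 0, 0, 0, 0, 0, 0],
    [-933660, 0, 0, 0, 0, 0, 466830, 0, 0, 0, 0, 0],
    [-466830, 0, 0, 0, 0, 0, 0, 466830, 0, 0, 0, 0],
    [-466830, 0, 0, 0, 0, 0, 0, 0, 0, 0, 0, 0],
    [-466830, 0, 0, 0, 0, 0, 0, 0, 466830, 0, 0, 0],
    [-49017150, 0, 0, 0, 0, 0, 0, 0, 0, 466830, 0, 0],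
    [25679430, 1512, 2093, 166, 0, 0, 0, 0, 0, -244566, 1, 0],
    [23814000, 2268, 2275, 2, 0, 0, 0, 0, 0, -226800, 0, 1]]

def FCi : Mt := mat
  [[0, -466830, 466830, 0, 0, 0, 0, 0, 0, 0, 0, 0],
    [0, -466830, 0, 466830, 0, 0, 0, 0, 0, 0, 0, 0],
    [0, -466830, 0, 0, 0, 0, 0, 0, 0, 0, 0, 0],
    [-2334150, -2334150, 0, 0, 466830, 0, 0, 0, 0, 0, 0, 0],
    [-1867320, -1867320, 0, 0, 0, 466830, 0, 0, 0, 0, 0, 0],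
    [-933660, -933660, 0, 0, 0, 0, 466830, 0, 0, 0, 0, 0],
    [-466830, -466830, 0, 0, 0, 0, 0, 466830, 0, 0, 0, 0],
    [-466830, -466830, 0, 0, 0, 0, 0, 0, 0, 0, 0, 0],
    [-466830, -466830, 0, 0, 0, 0, 0, 0, 466830, 0, 0, 0],
    [-49017150, -49017150, 0, 0, 0, 0, 0, 0, 0, 466830, 0, 0],
    [25679430, 25675659, 1512, 2093, 0, 0, 0, 0, 0, -244566, 1, 0],
    [23814000, 23809455, 2268, 2275, 0, 0, 0, 0, 0, -226800, 0, 1]]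

def FEp : Mt := mat
  [[0, 0, 0, 0, 0, 0, 0, 466830, 0, 0, 0, 0],
    [0, 0, 0, 0, 0, 0, 0, 0, 466830, 0, 0, 0],
    [466830, 1323463050, 0, 0, 0, 0, 0, 0, 0, 0, 0, 0],
    [0, 0, 466830, 0, 0, 0, 0, 0, 0, 0, 0, 0],
    [0, 0, 0, 466830, 0, 0, 0, 0, 0, 0, 0, 0],
    [0, 0, 0, 0, 466830, 0, 0, 0, 0, 0, 0, 0],
    [0, 466830, 0, 0, 0, 0, 0, 0, 0, 0, 0, 0],
    [0, 0, 0, 0, 0, 466830, 0, 0, 0, 0, 0, 0],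
    [0, 0, 0, 0, 0, 0, 466830, 0, 0, 0, 0, 0],
    [0, 49017150, 0, 0, 0, 0, 0, 0, 0, 466830, 0, 0],
    [166, -25208820, 0, 0, 0, 0, 0, 1512, 2093, -244566, 1, 0],
    [2, -23808330, 0, 0, 0, 0, 0, 2268, 2275, -226800, 0, 1]]

def FE1 : Mt := mat
  [[155610, 14004900, 41236650, 0, 0, 0, 0, 0, 0, 0, 0, 0],
    [0, 0, 0, 0, 0, 0, 0, 466830, 0, 0, 0, 0],
    [0, 0, 0, 0, 0, 0, 0, 0, 466830, 0, 0, 0],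
    [0, 0, 0, 466830, 0, 0, 0, 0, 0, 0, 0, 0],
    [0, 466830, 0, 0, 0, 0, 0, 0, 0, 0, 0, 0],
    [0, 0, 0, 0, 466830, 0, 0, 0, 0, 0, 0, 0],
    [0, 0, 0, 0, 0, 466830, 0, 0, 0, 0, 0, 0],
    [0, 0, 466830, 0, 0, 0, 0, 0, 0, 0, 0, 0],
    [0, 0, 0, 0, 0, 0, 466830, 0, 0, 0, 0, 0],
    [0, 11670750, 2334150, 0, 0, 0, 0, 0, 0, 466830, 0, 0],
    [504, -6068790, -1089270, 0, 0, 0, 0, 2093, 166, -244566, 1, 0],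
    [756, -5601960, -933660, 0, 0, 0, 0, 2275, 2, -226800, 0, 1]]

def FE2 : Mt := mat
  [[0, 0, 0, 0, 0, 0, 0, 466830, 0, 0, 0, 0],
    [35910, 25208820, 46539360, 0, 0, 0, 0, 0, 0, 0, 0, 0],
    [0, 0, 0, 0, 0, 0, 0, 0, 466830, 0, 0, 0],
    [0, 0, 0, 466830, 0, 0, 0, 0, 0, 0, 0, 0],
    [0, 0, 0, 0, 466830, 0, 0, 0, 0, 0, 0, 0],
    [0, 466830, 0, 0, 0, 0, 0, 0, 0, 0, 0, 0],
    [0, 0, 0, 0, 0, 466830, 0, 0, 0, 0, 0, 0],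
    [0, 0, 0, 0, 0, 0, 466830, 0, 0, 0, 0, 0],
    [0, 0, 466830, 0, 0, 0, 0, 0, 0, 0, 0, 0],
    [0, 24275160, 466830, 0, 0, 0, 0, 0, 0, 466830, 0, 0],
    [161, -12604410, -35910, 0, 0, 0, 0, 1512, 166, -244566, 1, 0],
    [175, -11670750, 0, 0, 0, 0, 0, 2268, 2, -226800, 0, 1]]

def FE0 : Mt := mat
  [[-466830, -39213720, 0, 0, 0, 0, 0, 466830, 0, 0, 0, 0],
    [-466830, -39213720, 0, 0, 0, 0, 0, 0, 466830, 0, 0, 0],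
    [-466830, -39213720, 0, 0, 0, 0, 0, 0, 0, 0, 0, 0],
    [-2334150, -195601770, 0, 0, 0, 0, 0, 0, 0, 0, 0, 0],
    [-1867320, -156854880, 466830, 0, 0, 0, 0, 0, 0, 0, 0, 0],
    [-933660, -78427440, 0, 466830, 0, 0, 0, 0, 0, 0, 0, 0],
    [-466830, -39213720, 0, 0, 466830, 0, 0, 0, 0, 0, 0, 0],
    [-466830, -39213720, 0, 0, 0, 466830, 0, 0, 0, 0, 0, 0],
    [-466830, -39213720, 0, 0, 0, 0, 466830, 0, 0, 0, 0, 0],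
    [-49017150, -4107637170, 0, 0, 0, 0, 0, 0, 0, 466830, 0, 0],
    [25675659, 2151619470, 0, 0, 0, 0, 0, 1512, 2093, -244566, 1, 0],
    [23809455, 1995231420, 0, 0, 0, 0, 0, 2268, 2275, -226800, 0, 1]]

def Fc : Fin 4 → Mt := ![Fcp, Fc1, Fc2, Fc0]
def Fv : Fin 6 → Mt := ![FCf, FCi, FEp, FE1, FE2, FE0]
def unc (l : Fin 12) : Bool := decide (l.1 < 6)
def unv (t : Fin 6) (l : Fin 12) : Bool := if t.1 < 2 then decide (4 ≤ l.1) else decide (7 ≤ l.1)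

def InC (c : Fin 4) (e : Vc) : Prop := Ok (Fc c) unc e
def Good (e : Vc) : Prop := ∀ t, Ok (Fv t) (unv t) e ∧ 0 < (e ᵥ* Fv t) 0
instance (c : Fin 4) (e : Vc) : Decidable (InC c e) := by unfold InC; infer_instance
instance (e : Vc) : Decidable (Good e) := by unfold Good; infer_instance

def gv (c : Fin 4) (l : Fin 12) (s : Bool) : Vc :=
  if s then 1296 • xc c + bc c l else if unc l then 1296 • xc c - bc c l else xc c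

lemma hFc : ∀ c, Fc c * bc c = 1 • (1 : Mt) := by decide +kernel
lemma hFv : ∀ t, Fv t * bv t = 466830 • (1 : Mt) := by decide +kernel
lemma gv_in : ∀ c l s c', InC c' (gv c l s) := by decide +kernel
lemma gv_good : ∀ c l s, Good (gv c l s) := by decide +kernel
lemma U_in : ∀ c, InC c U1 ∧ InC c (-U1) ∧ InC c U2 ∧ InC c (-U2) ∧ InC c (-xc c) := by
  decide +kernel
lemma bc_T : ∀ c l, bc c l 10 = ev 4 l ∧ bc c l 11 = ev 5 l := by decide +kernel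
lemma U_co : ∀ c l, (4 ≤ l → (U1 ᵥ* Fc c) l = 466830 * ev 4 l ∧ (U2 ᵥ* Fc c) l = 466830 * ev 5 l) := by
  decide +kernel

end Vale.Agent.P266
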