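import Vale.Agent.P266.Jet

/-! The explicit polynomial data. -/

namespace Vale.Agent.P266

def y1 : ℚ := 27725 / 22103
def y2 : ℚ := 3327 / 3193
def kp : ℚ := 6335859762225 / 134057029
def Lq0 : List ℚ := [1, 0, -301707607725 / 1072456232, -28390845656097952175 / 148669245161, 0, 1]
def Lq1 : List ℚ :=
  [1, 2625, 4205840625 / 1426, 2050136077521875 / 1016738, 3743916691861303125 / 4066952]
def Lq2 : List ℚ := [1, 1260, 54497625 / 103]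
def Lqp : List ℚ := [1, 625]
def Lt2 : List ℚ := [1, 105]
def Ls20 : List ℚ := [1, -496, -60341521545 / 536228116]
def Lr10 : List ℚ := [-6335859762225 / 134057029, -7154493105336683948100 / 148669245161, 0, 420]
def Lr20 : List ℚ := [0, -7151007976972435415700 / 148669245161,
  3431693024324441205971291651925 / 143770296194454728,
  -71952166634833912085340328234770 / 19930157309956286669, -208320]
def Ls1 : List ℚ := [1, 378]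
def Ls21 : List ℚ := [1, 269400 / 713]
def Ls22 : List ℚ := [1, 38953 / 103]
def Ls1p : List ℚ := [1, 753, 8717625 / 109]
def Lr11 : List ℚ := [-6335859762225 / 134057029, -8102515273240933125 / 134057029,
  -10202630166410680096875 / 134057029, 247476065927036819830768125 / 2144912464]
def Lr21 : List ℚ := [0, -8088277583328547500 / 134057029, -468649359385650178666875 / 6166623334,
  5695220219914657011451921875 / 49332986672]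
def Lr12 : List ℚ := [-6335859762225 / 134057029, -6724354341400137225 / 134057029]
def Lr22 : List ℚ := [0, -6718767281840684700 / 134057029]

variable {F : Type} [Field F] [CharZero F] (y V : F)

/-- Restrictions to the four lines. -/
def Res (n : ℕ) (H a b c d : F) : Prop :=
  Hm y V (n + 1) H ∧ On y V n H a y ∧ On y V n H b (y - y1) ∧ On y V n H c (y - y2) ∧ On y V n H d 1

lemma interp' {n : ℕ} {hp h1 h2 h0 : F} {a0 p1 p2 u1 u2 v1 v2 c w2 : ℚ}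
    (jp : Jet y V 1 n hp a0 p1 p2) (j1 : Jet y V 1 n h1 a0 u1 u2)
    (j2 : Jet y V 1 n h2 a0 v1 v2) (j0 : Jet y V y n h0 a0 c w2)
    (c1 : u1 = p1 + c * y1) (c2 : v1 = p1 + c * y2)
    (c3 : w2 = (y1 * y2)⁻¹ * p2 + (y1 * (y1 - y2))⁻¹ * u2 + (y2 * (y2 - y1))⁻¹ * v2) :
    ∃ H, Res y V (n + 2) H hp h1 h2 h0 :=
  interp y1 y2 _ _ _ (by norm_num [y1, y2]) (by norm_num [y1, y2]) (by norm_num [y1, y2])
    jp j1 j2 j0 c1 c2 c3

lemma bp : Jet y V 1 0 (hp 1 V Lqp ^ 3) 1 1875 1171875 :=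
  (jet_hp Hm.one 1 1875 1171875 [625 ^ 3] rfl).congr rfl
    (by simp only [hp, Lqp, List.length]; push_cast; ring) rfl rfl rfl

lemma b2 : Jet y V 1 1 (hp 1 V Lq2 ^ 2) 1 2520 (1260 ^ 2 + 2 * (54497625 / 103)) :=
  (jet_hp Hm.one 1 2520 (1260 ^ 2 + 2 * (54497625 / 103))
    [2520 * (54497625 / 103), (54497625 / 103) ^ 2] rfl).congr rfl
    (by simp only [hp, Lq2, List.length]; push_cast; ring) rfl rfl rfl

omit [CharZero F] in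
lemma b1 : Jet y V 1 1 (hp 1 V Lq1) 1 2625 (4205840625 / 1426) := jet_hp Hm.one _ _ _ _ rfl
omit [CharZero F] in
lemma b0 : Jet y V y 2 (hp y V Lq0) 1 0 (-301707607725 / 1072456232) := jet_hp Hm.fst _ _ _ _ rfl

lemma mp (k : ℕ) : Jet y V 1 k (hp 1 V Lqp ^ (k + 3)) 1 ((k + 3) * 625)
    ((k + 3) * (k + 2) / 2 * 625 ^ 2) :=
  (((Mu_hp1 Hm.one 1 625).pow k) _ _ _ _ _ (bp y V)).congr (by ring) (by rw [Lqp]; ring) (by ring)
    (by ring) (by ring)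

lemma m2 (k : ℕ) : Jet y V 1 (2 * k + 1) (hp 1 V Lq2 ^ (k + 2)) 1 ((k + 2) * 1260)
    ((k + 2) * (54497625 / 103) + (k + 2) * (k + 1) / 2 * 1260 ^ 2) :=
  (((Mu_hp2 Hm.one 1 1260 (54497625 / 103)).pow k) _ _ _ _ _ (b2 y V)).congr (by ring)
    (by rw [Lq2]; ring) (by ring) (by ring) (by ring)

lemma m1 (k : ℕ) : Jet y V 1 (4 * k + 1) (hp 1 V Lq1 ^ (k + 1)) 1 ((k + 1) * 2625)
    ((k + 1) * (4205840625 / 1426) + (k + 1) * k / 2 * 2625 ^ 2) :=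
  ((((b1 y V).mu Hm.one).pow k) _ _ _ _ _ (b1 y V)).congr (by ring) (by ring) (by ring) (by ring)
    (by ring)

lemma m0 (k : ℕ) : Jet y V y (5 * k + 2) (hp y V Lq0 ^ (k + 1)) 1 0
    ((k + 1) * (-301707607725 / 1072456232)) :=
  ((((b0 y V).mu Hm.fst).pow k) _ _ _ _ _ (b0 y V)).congr (by ring) (by ring) (by ring) (by ring)
    (by ring)

lemma exP1 : ∃ H, Res y V 55 H (hp 1 V Lqp ^ 54 * hp 1 V Ls1p) (hp 1 V Lq1 ^ 13 * V ^ 3 * hp 1 V Ls1)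
    (hp 1 V Lq2 ^ 27 * hp 1 V Lt2 ^ 1 * hp 1 V Ls1)
    (hp y V Lq0 ^ 11 * V + y ^ 2 * (hp y V Lq0 ^ 10 * V * hp y V Lr10)) :=
  interp' y V (a0 := 1)
    ((Mu_hp2 Hm.one _ _ _ _ _ _ _ _ (mp y V 51)).congr rfl rfl (by norm_num) rfl rfl)
    ((Mu_hp1 Hm.one _ _ _ _ _ _ _ (Mu_V.pow 3 _ _ _ _ _ (m1 y V 12))).congr rfl rfl
      (by norm_num) rfl rfl)
    ((Mu_hp1 Hm.one _ _ _ _ _ _ _ ((Mu_hp1 Hm.one 1 105).pow 1 _ _ _ _ _ (m2 y V 25))).congr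
      rfl rfl (by norm_num) rfl rfl)
    (((Mu_V _ _ _ _ _ (m0 y V 10)).add_sq (m := 51) Hm.fst
      ((jet_hp (n := 0) Hm.fst _ _ _ _ rfl).mu Hm.fst _ _ _ _ _
        (Mu_V _ _ _ _ _ (m0 y V 9)))).congr rfl rfl (by norm_num) rfl rfl)
    (by norm_num [y1]) (by norm_num [y2]) (by norm_num [y1, y2])

lemma exP2 : ∃ H, Res y V 51 H (hp 1 V Lqp ^ 51 * hp 1 V Lqp) (hp 1 V Lq1 ^ 12 * V ^ 3 * hp 1 V Ls21)
    (hp 1 V Lq2 ^ 25 * hp 1 V Lt2 ^ 1 * hp 1 V Ls22)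
    (hp y V Lq0 ^ 10 * hp y V Ls20 + y ^ 2 * (hp y V Lq0 ^ 9 * V * hp y V Lr20)) :=
  interp' y V (a0 := 1)
    ((Mu_hp1 Hm.one _ _ _ _ _ _ _ (mp y V 48)).congr rfl rfl (by norm_num) rfl rfl)
    ((Mu_hp1 Hm.one _ _ _ _ _ _ _ (Mu_V.pow 3 _ _ _ _ _ (m1 y V 11))).congr rfl rfl
      (by norm_num) rfl rfl)
    ((Mu_hp1 Hm.one _ _ _ _ _ _ _ ((Mu_hp1 Hm.one 1 105).pow 1 _ _ _ _ _ (m2 y V 23))).congr
      rfl rfl (by norm_num) rfl rfl)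
    (((Mu_hp2 Hm.fst _ _ _ _ _ _ _ _ (m0 y V 9)).add_sq (m := 47) Hm.fst
      ((jet_hp (n := 1) Hm.fst _ _ _ _ rfl).mu Hm.fst _ _ _ _ _
        (Mu_V _ _ _ _ _ (m0 y V 8)))).congr rfl rfl (by norm_num) rfl rfl)
    (by norm_num [y1]) (by norm_num [y2]) (by norm_num [y1, y2])

lemma exQ1 : ∃ H, Res y V 52 H (hp 1 V Lqp ^ 53 * (-kp : ℚ)) (hp 1 V Lq1 ^ 12 * V ^ 2 * hp 1 V Lr11)
    (hp 1 V Lq2 ^ 26 * hp 1 V Lt2 ^ 0 * hp 1 V Lr12) (hp y V Lq0 ^ 10 * hp y V Lr10) :=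
  interp' y V (a0 := -kp)
    ((Mu_rat _ _ _ _ _ _ (mp y V 50)).congr rfl rfl (by norm_num) rfl rfl)
    (((jet_hp (n := 0) Hm.one _ _ _ _ rfl).mu Hm.one _ _ _ _ _
      (Mu_V.pow 2 _ _ _ _ _ (m1 y V 11))).congr rfl rfl (by norm_num [kp]) rfl rfl)
    ((Mu_hp1 Hm.one _ _ _ _ _ _ _ ((Mu_hp1 Hm.one 1 105).pow 0 _ _ _ _ _ (m2 y V 24))).congr
      rfl rfl (by norm_num [kp]) rfl rfl)
    (((jet_hp (n := 0) Hm.fst _ _ _ _ rfl).mu Hm.fst _ _ _ _ _ (m0 y V 9)).congr rfl rfl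
      (by norm_num [kp]) rfl rfl)
    (by norm_num [y1, kp]) (by norm_num [y2, kp]) (by norm_num [y1, y2, kp])

lemma exQ2 : ∃ H, Res y V 48 H (hp 1 V Lqp ^ 50 * 0) (hp 1 V Lq1 ^ 11 * V ^ 2 * hp 1 V Lr21)
    (hp 1 V Lq2 ^ 24 * hp 1 V Lt2 ^ 0 * hp 1 V Lr22) (hp y V Lq0 ^ 9 * hp y V Lr20) :=
  interp' y V (a0 := 0) (p1 := 0) (p2 := 0) ⟨0, Hm.zero, by simp⟩
    (((jet_hp (n := 0) Hm.one _ _ _ _ rfl).mu Hm.one _ _ _ _ _
      (Mu_V.pow 2 _ _ _ _ _ (m1 y V 10))).congr rfl rfl (by norm_num) rfl rfl)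
    ((Mu_hp1 Hm.one _ _ _ _ _ _ _ ((Mu_hp1 Hm.one 1 105).pow 0 _ _ _ _ _ (m2 y V 22))).congr
      rfl rfl (by norm_num) rfl rfl)
    (((jet_hp (n := 1) Hm.fst _ _ _ _ rfl).mu Hm.fst _ _ _ _ _ (m0 y V 8)).congr rfl rfl
      (by norm_num) rfl rfl)
    (by norm_num [y1]) (by norm_num [y2]) (by norm_num [y1, y2])

end Vale.Agent.P266
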